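import Mathlib

open MeasureTheory ProbabilityTheory

namespace Vale.Agent.P146

/-- The pairs `i < j` of sites in `Fin n`. -/
abbrev Pair (n : ℕ) : Type := {p : Fin n × Fin n // p.1 < p.2}

/-- The law of the disorder `(g_{ij})_{i<j}`: independent standard Gaussian variables. -/
noncomputable def disorder (n : ℕ) : Measure (Pair n → ℝ) :=
  Measure.pi fun _ => gaussianReal 0 1

/-- The Hamiltonian `H_n(σ) = n^{-1/2} * ∑_{i<j} g_{ij} σ_i σ_j`, for spins `σ_i ∈ {1,-1}`. -/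
noncomputable def hamiltonian (n : ℕ) (g : Pair n → ℝ) (σ : Fin n → ℤˣ) : ℝ :=
  (1 / Real.sqrt n) * ∑ p : Pair n, g p * ((σ p.1.1 : ℤ) : ℝ) * ((σ p.1.2 : ℤ) : ℝ)

/-- The partition function `Z_n(β) = ∑_σ exp (β H_n(σ))`. -/
noncomputable def partitionFn (n : ℕ) (β : ℝ) (g : Pair n → ℝ) : ℝ :=
  ∑ σ : Fin n → ℤˣ, Real.exp (β * hamiltonian n g σ)

/-- The free energy `F_n(β) = log Z_n(β)`. -/
noncomputable def freeEnergy (n : ℕ) (β : ℝ) (g : Pair n → ℝ) : ℝ :=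
  Real.log (partitionFn n β g)

end Vale.Agent.P146
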