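import Vale.Agent.P146.Gauss

open MeasureTheory ProbabilityTheory

namespace Vale.Agent.P146

variable {ι S : Type*} [Fintype ι] [Fintype S]

/-- Boltzmann weights with linear part `a` and constant part `c`. -/
noncomputable def wt (a : S → ι → ℝ) (c : S → ℝ) (g : ι → ℝ) (s : S) : ℝ :=
  Real.exp (∑ i, a s i * g i + c s)

noncomputable def zz (a : S → ι → ℝ) (c : S → ℝ) (g : ι → ℝ) : ℝ := ∑ s, wt a c g s

/-- Gibbs average. -/
noncomputable def gav (a : S → ι → ℝ) (c : S → ℝ) (f : S → ℝ) (g : ι → ℝ) : ℝ :=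
  (∑ s, f s * wt a c g s) / zz a c g

section basics

variable (a : S → ι → ℝ) (c : S → ℝ)

lemma wt_pos (g : ι → ℝ) (s : S) : 0 < wt a c g s := Real.exp_pos _

lemma zz_pos [Nonempty S] (g : ι → ℝ) : 0 < zz a c g :=
  Finset.sum_pos (fun s _ => wt_pos a c g s) Finset.univ_nonempty

lemma wt_cont (s : S) : Continuous fun g => wt a c g s := by
  unfold wt; fun_prop

lemma zz_cont : Continuous fun g => zz a c g := by
  unfold zz
  exact continuous_finsetSum _ fun s _ => wt_cont a c s

lemma gav_cont [Nonempty S] (f : S → ℝ) : Continuous fun g => gav a c f g := by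
  unfold gav
  refine Continuous.div ?_ (zz_cont a c) fun g => (zz_pos a c g).ne'
  exact continuous_finsetSum _ fun s _ => (wt_cont a c s).const_mul _

lemma abs_gav_le [Nonempty S] {f : S → ℝ} {B : ℝ} (hf : ∀ s, |f s| ≤ B) (g : ι → ℝ) :
    |gav a c f g| ≤ B := by
  unfold gav
  rw [abs_div, abs_of_pos (zz_pos a c g), div_le_iff₀ (zz_pos a c g)]
  calc |∑ s, f s * wt a c g s| ≤ ∑ s, |f s * wt a c g s| := Finset.abs_sum_le_sum_abs _ _
    _ ≤ ∑ s, B * wt a c g s := by
        refine Finset.sum_le_sum fun s _ => ?_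
        rw [abs_mul, abs_of_pos (wt_pos a c g s)]
        exact mul_le_mul_of_nonneg_right (hf s) (wt_pos a c g s).le
    _ = B * zz a c g := by rw [zz, Finset.mul_sum]

lemma gav_mono [Nonempty S] {f h : S → ℝ} (hf : ∀ s, f s ≤ h s) (g : ι → ℝ) :
    gav a c f g ≤ gav a c h g := by
  unfold gav
  refine div_le_div_of_nonneg_right ?_ (zz_pos a c g).le
  exact Finset.sum_le_sum fun s _ => mul_le_mul_of_nonneg_right (hf s) (wt_pos a c g s).le

lemma gav_nonneg [Nonempty S] {f : S → ℝ} (hf : ∀ s, 0 ≤ f s) (g : ι → ℝ) :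
    0 ≤ gav a c f g := by
  unfold gav
  exact div_nonneg (Finset.sum_nonneg fun s _ => mul_nonneg (hf s) (wt_pos a c g s).le)
    (zz_pos a c g).le

lemma gav_const [Nonempty S] (b : ℝ) (g : ι → ℝ) : gav a c (fun _ => b) g = b := by
  unfold gav
  rw [← Finset.mul_sum, ← zz, mul_div_assoc, div_self (zz_pos a c g).ne', mul_one]

lemma gav_add (f h : S → ℝ) (g : ι → ℝ) :
    gav a c (fun s => f s + h s) g = gav a c f g + gav a c h g := by
  unfold gav
  rw [← add_div, ← Finset.sum_add_distrib]
  congr 1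
  exact Finset.sum_congr rfl fun s _ => by ring

lemma gav_sub (f h : S → ℝ) (g : ι → ℝ) :
    gav a c (fun s => f s - h s) g = gav a c f g - gav a c h g := by
  unfold gav
  rw [← sub_div, ← Finset.sum_sub_distrib]
  congr 1
  exact Finset.sum_congr rfl fun s _ => by ring

lemma gav_const_mul (b : ℝ) (f : S → ℝ) (g : ι → ℝ) :
    gav a c (fun s => b * f s) g = b * gav a c f g := by
  unfold gav
  rw [← mul_div_assoc, Finset.mul_sum]
  congr 1
  exact Finset.sum_congr rfl fun s _ => by ring

lemma gav_sum {κ : Type*} (t : Finset κ) (f : κ → S → ℝ) (g : ι → ℝ) :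
    gav a c (fun s => ∑ k ∈ t, f k s) g = ∑ k ∈ t, gav a c (f k) g := by
  unfold gav
  rw [← Finset.sum_div]
  congr 1
  rw [Finset.sum_comm]
  exact Finset.sum_congr rfl fun s _ => by rw [Finset.sum_mul]

lemma gav_dom [Nonempty S] (f : S → ℝ) : Dom (fun g => gav a c f g) := by
  have hb : ∀ s, |f s| ≤ ∑ s, |f s| := fun s =>
    Finset.single_le_sum (f := fun s => |f s|) (fun i _ => abs_nonneg _) (Finset.mem_univ s)
  exact Dom.of_bounded (gav_cont a c f) (∑ s, |f s|) (fun g => abs_gav_le a c hb g)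

lemma exponent_bound (g : ι → ℝ) (s : S) :
    |∑ i, a s i * g i + c s| ≤ (∑ s, ∑ i, |a s i|) * ∑ i, |g i| + ∑ s, |c s| := by
  have hA : ∀ i, |a s i| ≤ ∑ s, ∑ i, |a s i| := fun i => by
    calc |a s i| ≤ ∑ i, |a s i| := Finset.single_le_sum (f := fun i => |a s i|)
          (fun i _ => abs_nonneg _) (Finset.mem_univ i)
      _ ≤ ∑ s, ∑ i, |a s i| := Finset.single_le_sum (f := fun s => ∑ i, |a s i|)
          (fun i _ => Finset.sum_nonneg fun _ _ => abs_nonneg _) (Finset.mem_univ s)
  have hc : |c s| ≤ ∑ s, |c s| := Finset.single_le_sum (f := fun s => |c s|)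
    (fun i _ => abs_nonneg _) (Finset.mem_univ s)
  calc |∑ i, a s i * g i + c s| ≤ |∑ i, a s i * g i| + |c s| := abs_add_le _ _
    _ ≤ ∑ i, |a s i * g i| + |c s| := by gcongr; exact Finset.abs_sum_le_sum_abs _ _
    _ ≤ ∑ i, (∑ s, ∑ i, |a s i|) * |g i| + ∑ s, |c s| := by
        gcongr with i
        rw [abs_mul]
        exact mul_le_mul_of_nonneg_right (hA i) (abs_nonneg _)
    _ = _ := by rw [Finset.mul_sum]

lemma log_zz_bound [Nonempty S] (g : ι → ℝ) :
    |Real.log (zz a c g)| ≤ (∑ s, ∑ i, |a s i|) * ∑ i, |g i| + ∑ s, |c s|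
      + Real.log (Fintype.card S) := by
  set E := (∑ s, ∑ i, |a s i|) * ∑ i, |g i| + ∑ s, |c s| with hE
  have hcard : (1 : ℝ) ≤ Fintype.card S := by
    exact_mod_cast Fintype.card_pos
  have hup : zz a c g ≤ Fintype.card S * Real.exp E := by
    unfold zz
    calc ∑ s, wt a c g s ≤ ∑ _s : S, Real.exp E := by
          refine Finset.sum_le_sum fun s _ => Real.exp_le_exp.2 ?_
          exact (le_abs_self _).trans (exponent_bound a c g s)
      _ = Fintype.card S * Real.exp E := by simp
  obtain ⟨s0⟩ := (inferInstance : Nonempty S)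
  have hlow : Real.exp (-E) ≤ zz a c g := by
    calc Real.exp (-E) ≤ wt a c g s0 := by
          refine Real.exp_le_exp.2 ?_
          exact (neg_le_neg (exponent_bound a c g s0)).trans (neg_abs_le _)
      _ ≤ zz a c g := Finset.single_le_sum (f := fun s => wt a c g s)
          (fun s _ => (wt_pos a c g s).le) (Finset.mem_univ s0)
  have hl0 : 0 ≤ Real.log (Fintype.card S : ℝ) := Real.log_nonneg hcard
  rw [abs_le]
  constructor
  · have := Real.log_le_log (Real.exp_pos _) hlow
    rw [Real.log_exp] at this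
    linarith
  · have := Real.log_le_log (zz_pos a c g) hup
    rw [Real.log_mul (by positivity) (Real.exp_pos _).ne', Real.log_exp] at this
    linarith

lemma log_zz_cont [Nonempty S] : Continuous fun g => Real.log (zz a c g) :=
  (zz_cont a c).log fun g => (zz_pos a c g).ne'

lemma log_zz_dom [Nonempty S] : Dom (fun g => Real.log (zz a c g)) := by
  set A := ∑ s, ∑ i, |a s i| with hA
  have hA0 : 0 ≤ A := Finset.sum_nonneg fun _ _ => Finset.sum_nonneg fun _ _ => abs_nonneg _
  set B := ∑ s, |c s| + Real.log (Fintype.card S) with hB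
  have hB0 : 0 ≤ B := by
    have h1 : (0 : ℝ) ≤ ∑ s, |c s| := Finset.sum_nonneg fun _ _ => abs_nonneg _
    have h2 : 0 ≤ Real.log (Fintype.card S : ℝ) :=
      Real.log_nonneg (by exact_mod_cast Fintype.card_pos)
    linarith
  refine ⟨log_zz_cont a c, A + B, 1, by positivity, zero_le_one, fun g => ?_⟩
  have h := log_zz_bound a c g
  have h0 := sum_abs_nonneg g
  have h1 := Real.add_one_le_exp (∑ i, |g i|)
  have h2 : (∑ i, |g i|) ≤ Real.exp (∑ i, |g i|) := by linarith
  have h3 : 1 ≤ Real.exp (∑ i, |g i|) := by linarith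
  calc |Real.log (zz a c g)| ≤ A * (∑ i, |g i|) + B := by rw [hB]; linarith
    _ ≤ A * Real.exp (∑ i, |g i|) + B * Real.exp (∑ i, |g i|) := by
        gcongr
        exact le_mul_of_one_le_right hB0 h3
    _ = (A + B) * Real.exp (1 * ∑ i, |g i|) := by rw [one_mul]; ring

end basics

section deriv

variable [DecidableEq ι] (a : S → ι → ℝ) (c : S → ℝ)

lemma hasDerivAt_exponent (g : ι → ℝ) (e : ι) (s : S) (t : ℝ) :
    HasDerivAt (fun t => ∑ i, a s i * Function.update g e t i + c s) (a s e) t := by
  have h : ∀ i ∈ Finset.univ, HasDerivAt (fun t => a s i * Function.update g e t i)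
      (a s i * (Pi.single e (1 : ℝ) : ι → ℝ) i) t := by
    intro i _
    refine HasDerivAt.const_mul _ ?_
    have := hasDerivAt_update g e t
    exact (hasDerivAt_pi.1 this) i
  have h2 := (HasDerivAt.fun_sum h).add_const (c s)
  refine h2.congr_deriv ?_
  rw [Finset.sum_eq_single e]
  · simp
  · intro i _ hi; simp [Pi.single_eq_of_ne hi]
  · intro h; exact absurd (Finset.mem_univ e) h

lemma hasDerivAt_wt (g : ι → ℝ) (e : ι) (s : S) (t : ℝ) :
    HasDerivAt (fun t => wt a c (Function.update g e t) s)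
      (a s e * wt a c (Function.update g e t) s) t := by
  have := (hasDerivAt_exponent a c g e s t).exp
  refine this.congr_deriv ?_
  unfold wt; ring

lemma hasDerivAt_num (f : S → ℝ) (g : ι → ℝ) (e : ι) (t : ℝ) :
    HasDerivAt (fun t => ∑ s, f s * wt a c (Function.update g e t) s)
      (∑ s, f s * a s e * wt a c (Function.update g e t) s) t := by
  have h : ∀ s ∈ Finset.univ, HasDerivAt (fun t => f s * wt a c (Function.update g e t) s)
      (f s * a s e * wt a c (Function.update g e t) s) t := by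
    intro s _
    refine ((hasDerivAt_wt a c g e s t).const_mul (f s)).congr_deriv ?_
    ring
  exact HasDerivAt.fun_sum h

lemma hasDerivAt_zz (g : ι → ℝ) (e : ι) (t : ℝ) :
    HasDerivAt (fun t => zz a c (Function.update g e t))
      (∑ s, a s e * wt a c (Function.update g e t) s) t := by
  have := hasDerivAt_num a c (fun _ => 1) g e t
  simpa [zz] using this

lemma hasDerivAt_log_zz [Nonempty S] (g : ι → ℝ) (e : ι) (t : ℝ) :
    HasDerivAt (fun t => Real.log (zz a c (Function.update g e t)))
      (gav a c (fun s => a s e) (Function.update g e t)) t := by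
  exact (hasDerivAt_zz a c g e t).log (zz_pos a c _).ne'

lemma hasDerivAt_gav [Nonempty S] (f : S → ℝ) (g : ι → ℝ) (e : ι) (t : ℝ) :
    HasDerivAt (fun t => gav a c f (Function.update g e t))
      (gav a c (fun s => f s * a s e) (Function.update g e t)
        - gav a c f (Function.update g e t)
          * gav a c (fun s => a s e) (Function.update g e t)) t := by
  have h := (hasDerivAt_num a c f g e t).fun_div (hasDerivAt_zz a c g e t)
    (zz_pos a c (Function.update g e t)).ne'
  refine h.congr_deriv ?_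
  unfold gav
  have hz := (zz_pos a c (Function.update g e t)).ne'
  field_simp

end deriv

end Vale.Agent.P146
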