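import Vale.Agent.P146.Defs
import Vale.Agent.P146.Gibbs

open MeasureTheory ProbabilityTheory

namespace Vale.Agent.P146

/-- real value of the spin at `v` -/
noncomputable def sp {n : ℕ} (σ : Fin n → ℤˣ) (v : Fin n) : ℝ := ((σ v : ℤ) : ℝ)

lemma sp_sq {n : ℕ} (σ : Fin n → ℤˣ) (v : Fin n) : sp σ v * sp σ v = 1 := by
  unfold sp
  have : ((σ v : ℤ)) * (σ v : ℤ) = 1 := by
    rw [← Units.val_mul, Int.units_mul_self, Units.val_one]
  exact_mod_cast this

lemma abs_sp {n : ℕ} (σ : Fin n → ℤˣ) (v : Fin n) : |sp σ v| = 1 := by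
  have h := sp_sq σ v
  have h2 : |sp σ v| * |sp σ v| = 1 := by rw [← abs_mul, h, abs_one]
  nlinarith [abs_nonneg (sp σ v)]

/-- spin product -/
noncomputable def chi {n : ℕ} (A : Finset (Fin n)) (σ : Fin n → ℤˣ) : ℝ := ∏ v ∈ A, sp σ v

lemma abs_chi {n : ℕ} (A : Finset (Fin n)) (σ : Fin n → ℤˣ) : |chi A σ| = 1 := by
  unfold chi
  rw [Finset.abs_prod]
  exact Finset.prod_eq_one fun v _ => abs_sp σ v

lemma chi_empty {n : ℕ} (σ : Fin n → ℤˣ) : chi ∅ σ = 1 := by simp [chi]

lemma chi_eq_univ {n : ℕ} (A : Finset (Fin n)) (σ : Fin n → ℤˣ) :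
    chi A σ = ∏ v, if v ∈ A then sp σ v else 1 := by
  unfold chi
  rw [Finset.prod_ite_mem, Finset.univ_inter]

lemma chi_symmDiff {n : ℕ} (A B : Finset (Fin n)) (σ : Fin n → ℤˣ) :
    chi (symmDiff A B) σ = chi A σ * chi B σ := by
  rw [chi_eq_univ, chi_eq_univ, chi_eq_univ, ← Finset.prod_mul_distrib]
  refine Finset.prod_congr rfl fun v _ => ?_
  have := sp_sq σ v
  by_cases h1 : v ∈ A <;> by_cases h2 : v ∈ B <;>
    simp [Finset.mem_symmDiff, h1, h2, this]

/-- the two sites of a pair -/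
def ps {n : ℕ} (p : Pair n) : Finset (Fin n) := {p.1.1, p.1.2}

lemma ps_card {n : ℕ} (p : Pair n) : (ps p).card = 2 :=
  Finset.card_pair p.2.ne

lemma chi_ps {n : ℕ} (p : Pair n) (σ : Fin n → ℤˣ) :
    chi (ps p) σ = sp σ p.1.1 * sp σ p.1.2 := by
  unfold chi ps
  rw [Finset.prod_pair p.2.ne]

/-- coefficients of the SK Hamiltonian at inverse temperature `β` -/
noncomputable def ska (n : ℕ) (β : ℝ) (σ : Fin n → ℤˣ) (p : Pair n) : ℝ :=
  (β / Real.sqrt n) * chi (ps p) σ

lemma ska_sum (n : ℕ) (β : ℝ) (σ : Fin n → ℤˣ) (g : Pair n → ℝ) :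
    ∑ p, ska n β σ p * g p = β * hamiltonian n g σ := by
  unfold ska hamiltonian
  rw [Finset.mul_sum, Finset.mul_sum]
  refine Finset.sum_congr rfl fun p _ => ?_
  rw [chi_ps]
  unfold sp
  ring

/-- Gibbs average of a spin function -/
noncomputable def avf (n : ℕ) (β : ℝ) (f : (Fin n → ℤˣ) → ℝ) (g : Pair n → ℝ) : ℝ :=
  gav (ska n β) (fun _ => 0) f g

/-- Gibbs average of a spin product -/
noncomputable def av (n : ℕ) (β : ℝ) (A : Finset (Fin n)) (g : Pair n → ℝ) : ℝ :=
  avf n β (chi A) g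

lemma partitionFn_eq (n : ℕ) (β : ℝ) (g : Pair n → ℝ) :
    partitionFn n β g = zz (ska n β) (fun _ => 0) g := by
  unfold partitionFn zz wt
  refine Finset.sum_congr rfl fun σ _ => ?_
  rw [ska_sum, add_zero]

lemma freeEnergy_eq (n : ℕ) (β : ℝ) (g : Pair n → ℝ) :
    freeEnergy n β g = Real.log (zz (ska n β) (fun _ => 0) g) := by
  unfold freeEnergy
  rw [partitionFn_eq]

lemma freeEnergy_dom (n : ℕ) (β : ℝ) : Dom (freeEnergy n β) :=
  (log_zz_dom (ska n β) (fun _ => 0)).congr fun g => freeEnergy_eq n β g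

lemma av_dom (n : ℕ) (β : ℝ) (A : Finset (Fin n)) : Dom (av n β A) :=
  gav_dom _ _ _

lemma abs_av_le (n : ℕ) (β : ℝ) (A : Finset (Fin n)) (g : Pair n → ℝ) :
    |av n β A g| ≤ 1 :=
  abs_gav_le _ _ (fun s => (abs_chi A s).le) g

lemma av_empty (n : ℕ) (β : ℝ) (g : Pair n → ℝ) : av n β ∅ g = 1 := by
  unfold av avf
  have : (chi (∅ : Finset (Fin n))) = fun _ => (1 : ℝ) := by
    ext σ; exact chi_empty σ
  rw [this]
  exact gav_const _ _ 1 g

lemma hasDerivAt_freeEnergy (n : ℕ) (β : ℝ) (g : Pair n → ℝ) (p : Pair n) (t : ℝ) :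
    HasDerivAt (fun t => freeEnergy n β (Function.update g p t))
      ((β / Real.sqrt n) * av n β (ps p) (Function.update g p t)) t := by
  have h := hasDerivAt_log_zz (ska n β) (fun _ => 0) g p t
  have e : (fun t => freeEnergy n β (Function.update g p t))
      = fun t => Real.log (zz (ska n β) (fun _ => 0) (Function.update g p t)) := by
    ext t; exact freeEnergy_eq n β _
  rw [e]
  refine h.congr_deriv ?_
  unfold av avf
  rw [← gav_const_mul]
  rfl

lemma hasDerivAt_av (n : ℕ) (β : ℝ) (A : Finset (Fin n)) (g : Pair n → ℝ) (p : Pair n)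
    (t : ℝ) :
    HasDerivAt (fun t => av n β A (Function.update g p t))
      ((β / Real.sqrt n) * (av n β (symmDiff A (ps p)) (Function.update g p t)
        - av n β A (Function.update g p t) * av n β (ps p) (Function.update g p t))) t := by
  have h := hasDerivAt_gav (ska n β) (fun _ => 0) (chi A) g p t
  refine h.congr_deriv ?_
  unfold av avf
  have e1 : (fun s => chi A s * ska n β s p)
      = fun s => (β / Real.sqrt n) * chi (symmDiff A (ps p)) s := by
    ext s; rw [chi_symmDiff]; unfold ska; ring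
  have e2 : (fun s => ska n β s p) = fun s => (β / Real.sqrt n) * chi (ps p) s := by
    ext s; rfl
  rw [e1, e2, gav_const_mul, gav_const_mul]
  ring

end Vale.Agent.P146
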