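import Mathlib

open MeasureTheory ProbabilityTheory

namespace Vale.Agent.P146

section OneDim

lemma exp_abs_le (c x : ℝ) :
    Real.exp (c * |x|) ≤ Real.exp (c * x) + Real.exp (-c * x) := by
  rcases abs_cases x with ⟨h, _⟩ | ⟨h, _⟩
  · rw [h]; linarith [Real.exp_pos (-c * x)]
  · rw [h]
    have : c * -x = -c * x := by ring
    rw [this]; linarith [Real.exp_pos (c * x)]

lemma integrable_exp_abs (c : ℝ) :
    Integrable (fun x : ℝ => Real.exp (c * |x|)) (gaussianReal 0 1) := by
  have h1 : Integrable (fun x : ℝ => Real.exp (c * x)) (gaussianReal 0 1) :=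
    integrable_exp_mul_gaussianReal c
  have h2 : Integrable (fun x : ℝ => Real.exp (-c * x)) (gaussianReal 0 1) :=
    integrable_exp_mul_gaussianReal (-c)
  refine Integrable.mono' (h1.add h2) ?_ (ae_of_all _ fun x => ?_)
  · exact (by fun_prop : Continuous fun x : ℝ => Real.exp (c * |x|)).aestronglyMeasurable
  · rw [Real.norm_eq_abs, abs_of_pos (Real.exp_pos _)]
    exact exp_abs_le c x

lemma integrable_gaussian_iff (f : ℝ → ℝ) :
    Integrable f (gaussianReal 0 1) ↔
      Integrable (fun x => gaussianPDFReal 0 1 x * f x) := by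
  rw [gaussianReal_of_var_ne_zero 0 one_ne_zero,
    integrable_withDensity_iff_integrable_smul' (measurable_gaussianPDF 0 1)
      (ae_of_all _ fun x => gaussianPDF_lt_top)]
  simp only [toReal_gaussianPDF, smul_eq_mul]

lemma hasDerivAt_pdf (x : ℝ) :
    HasDerivAt (gaussianPDFReal 0 1) (-(x * gaussianPDFReal 0 1 x)) x := by
  have h0 : gaussianPDFReal 0 1 = fun x : ℝ => (√(2 * Real.pi))⁻¹ * Real.exp (-x ^ 2 / 2) := by
    ext y; simp [gaussianPDFReal]
  rw [h0]
  have h : HasDerivAt (fun x : ℝ => -x ^ 2 / 2) (-x) x := by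
    have := (((hasDerivAt_id' x).fun_pow 2).fun_neg).div_const (2 : ℝ)
    refine this.congr_deriv ?_
    simp only [Nat.cast_ofNat, Nat.add_one_sub_one, pow_one, mul_one]
    linarith
  have h2 := (h.exp).const_mul ((√(2 * Real.pi))⁻¹)
  refine h2.congr_deriv ?_
  ring

lemma stein (f f' : ℝ → ℝ) (hd : ∀ x, HasDerivAt f (f' x) x) (hf' : Continuous f')
    (C c : ℝ) (hC : ∀ x, |f x| ≤ C * Real.exp (c * |x|))
    (hC' : ∀ x, |f' x| ≤ C * Real.exp (c * |x|)) :
    ∫ x, x * f x ∂(gaussianReal 0 1) = ∫ x, f' x ∂(gaussianReal 0 1) := by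
  have hfc : Continuous f := continuous_iff_continuousAt.2 fun x => (hd x).continuousAt
  have hC0 : 0 ≤ C := by
    have := (abs_nonneg _).trans (hC 0)
    simpa using this
  have i1 : Integrable f (gaussianReal 0 1) :=
    Integrable.mono' ((integrable_exp_abs c).const_mul C) hfc.aestronglyMeasurable
      (ae_of_all _ fun x => by rw [Real.norm_eq_abs]; exact hC x)
  have i2 : Integrable f' (gaussianReal 0 1) :=
    Integrable.mono' ((integrable_exp_abs c).const_mul C) hf'.aestronglyMeasurable
      (ae_of_all _ fun x => by rw [Real.norm_eq_abs]; exact hC' x)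
  have i3 : Integrable (fun x => x * f x) (gaussianReal 0 1) := by
    refine Integrable.mono' ((integrable_exp_abs (c + 1)).const_mul C)
      (continuous_id.mul hfc).aestronglyMeasurable (ae_of_all _ fun x => ?_)
    rw [Real.norm_eq_abs, abs_mul]
    have h1 : |x| ≤ Real.exp |x| := by
      have := Real.add_one_le_exp |x|; linarith
    calc |x| * |f x| ≤ Real.exp |x| * (C * Real.exp (c * |x|)) :=
          mul_le_mul h1 (hC x) (abs_nonneg _) (Real.exp_pos _).le
      _ = C * Real.exp ((c + 1) * |x|) := by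
          rw [show (c + 1) * |x| = |x| + c * |x| by ring, Real.exp_add]; ring
  rw [integral_gaussianReal_eq_integral_smul one_ne_zero,
    integral_gaussianReal_eq_integral_smul one_ne_zero]
  simp only [smul_eq_mul]
  have key := integral_mul_deriv_eq_deriv_mul_of_integrable
    (u := f) (v := gaussianPDFReal 0 1) (u' := f')
    (v' := fun x => -(x * gaussianPDFReal 0 1 x))
    (fun x _ => hd x) (fun x _ => hasDerivAt_pdf x) ?_ ?_ ?_
  · have e1 : ∫ x, gaussianPDFReal 0 1 x * (x * f x)
        = - ∫ x, f x * -(x * gaussianPDFReal 0 1 x) := by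
      rw [← integral_neg]; congr 1; ext x; ring
    rw [e1, key, neg_neg]
    congr 1; ext x; ring
  · have := ((integrable_gaussian_iff _).1 i3).neg
    refine this.congr (ae_of_all _ fun x => ?_)
    simp only [Pi.neg_apply, Pi.mul_apply]; ring
  · refine ((integrable_gaussian_iff _).1 i2).congr (ae_of_all _ fun x => ?_)
    simp only [Pi.mul_apply]; ring
  · refine ((integrable_gaussian_iff _).1 i1).congr (ae_of_all _ fun x => ?_)
    simp only [Pi.mul_apply]; ring

end OneDim

section MultiDim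

variable {ι : Type*} [Fintype ι]

/-- The standard Gaussian measure on `ι → ℝ`. -/
noncomputable def gpi (ι : Type*) [Fintype ι] : Measure (ι → ℝ) :=
  Measure.pi fun _ => gaussianReal 0 1

instance : IsProbabilityMeasure (gpi ι) := by unfold gpi; infer_instance

/-- Continuous functions of at most exponential growth. -/
structure Dom (f : (ι → ℝ) → ℝ) : Prop where
  cont : Continuous f
  bound : ∃ C c : ℝ, 0 ≤ C ∧ 0 ≤ c ∧ ∀ g, |f g| ≤ C * Real.exp (c * ∑ i, |g i|)

lemma sum_abs_nonneg (g : ι → ℝ) : 0 ≤ ∑ i, |g i| :=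
  Finset.sum_nonneg fun i _ => abs_nonneg _

lemma Dom.add {f h : (ι → ℝ) → ℝ} (hf : Dom f) (hh : Dom h) : Dom (fun g => f g + h g) := by
  obtain ⟨C, c, hC, hc, hb⟩ := hf.bound
  obtain ⟨C', c', hC', hc', hb'⟩ := hh.bound
  refine ⟨hf.cont.add hh.cont, C + C', max c c', by positivity, le_max_of_le_left hc,
    fun g => ?_⟩
  have s := sum_abs_nonneg g
  calc |f g + h g| ≤ |f g| + |h g| := abs_add_le _ _
    _ ≤ C * Real.exp (c * ∑ i, |g i|) + C' * Real.exp (c' * ∑ i, |g i|) :=
        add_le_add (hb g) (hb' g)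
    _ ≤ C * Real.exp (max c c' * ∑ i, |g i|) + C' * Real.exp (max c c' * ∑ i, |g i|) := by
        gcongr
        · exact le_max_left _ _
        · exact le_max_right _ _
    _ = (C + C') * Real.exp (max c c' * ∑ i, |g i|) := by ring

lemma Dom.mul {f h : (ι → ℝ) → ℝ} (hf : Dom f) (hh : Dom h) : Dom (fun g => f g * h g) := by
  obtain ⟨C, c, hC, hc, hb⟩ := hf.bound
  obtain ⟨C', c', hC', hc', hb'⟩ := hh.bound
  refine ⟨hf.cont.mul hh.cont, C * C', c + c', by positivity, by positivity,
    fun g => ?_⟩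
  calc |f g * h g| = |f g| * |h g| := abs_mul _ _
    _ ≤ (C * Real.exp (c * ∑ i, |g i|)) * (C' * Real.exp (c' * ∑ i, |g i|)) :=
        mul_le_mul (hb g) (hb' g) (abs_nonneg _) (by positivity)
    _ = (C * C') * Real.exp ((c + c') * ∑ i, |g i|) := by
        rw [add_mul, Real.exp_add]; ring

lemma Dom.of_bounded {f : (ι → ℝ) → ℝ} (hf : Continuous f) (C : ℝ) (hb : ∀ g, |f g| ≤ C) :
    Dom f := by
  have hC : 0 ≤ C := (abs_nonneg _).trans (hb 0)
  exact ⟨hf, C, 0, hC, le_rfl, fun g => by simpa using hb g⟩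

lemma Dom.const (a : ℝ) : Dom (fun _ : ι → ℝ => a) :=
  Dom.of_bounded continuous_const |a| fun _ => le_rfl

lemma Dom.coord (e : ι) : Dom (fun g : ι → ℝ => g e) := by
  refine ⟨continuous_apply e, 1, 1, zero_le_one, zero_le_one, fun g => ?_⟩
  have h1 : |g e| ≤ ∑ i, |g i| := Finset.single_le_sum (f := fun i => |g i|)
    (fun _ _ => abs_nonneg _) (Finset.mem_univ e)
  have := Real.add_one_le_exp (∑ i, |g i|)
  rw [one_mul, one_mul]; linarith

lemma Dom.const_mul {f : (ι → ℝ) → ℝ} (a : ℝ) (hf : Dom f) : Dom (fun g => a * f g) :=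
  (Dom.const a).mul hf

lemma Dom.neg {f : (ι → ℝ) → ℝ} (hf : Dom f) : Dom (fun g => - f g) := by
  simpa using hf.const_mul (-1)

lemma Dom.sub {f h : (ι → ℝ) → ℝ} (hf : Dom f) (hh : Dom h) : Dom (fun g => f g - h g) := by
  simpa [sub_eq_add_neg] using hf.add hh.neg

lemma Dom.sum {κ : Type*} (s : Finset κ) {f : κ → (ι → ℝ) → ℝ} (hf : ∀ k ∈ s, Dom (f k)) :
    Dom (fun g => ∑ k ∈ s, f k g) := by
  classical
  induction s using Finset.induction_on with
  | empty => simpa using Dom.const (ι := ι) 0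
  | insert a s ha ih =>
    simp only [Finset.sum_insert ha]
    exact (hf a (Finset.mem_insert_self _ _)).add
      (ih fun k hk => hf k (Finset.mem_insert_of_mem hk))

lemma Dom.prod {κ : Type*} (s : Finset κ) {f : κ → (ι → ℝ) → ℝ} (hf : ∀ k ∈ s, Dom (f k)) :
    Dom (fun g => ∏ k ∈ s, f k g) := by
  classical
  induction s using Finset.induction_on with
  | empty => simpa using Dom.const (ι := ι) 1
  | insert a s ha ih =>
    simp only [Finset.prod_insert ha]
    exact (hf a (Finset.mem_insert_self _ _)).mul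
      (ih fun k hk => hf k (Finset.mem_insert_of_mem hk))

lemma Dom.congr {f h : (ι → ℝ) → ℝ} (hf : Dom f) (e : ∀ g, h g = f g) : Dom h := by
  have : h = f := funext e
  rwa [this]

lemma Dom.pow {f : (ι → ℝ) → ℝ} (hf : Dom f) (k : ℕ) : Dom (fun g => f g ^ k) := by
  induction k with
  | zero => simpa using Dom.const (ι := ι) 1
  | succ k ih => simpa [pow_succ] using ih.mul hf

lemma integrable_exp_sum (c : ℝ) :
    Integrable (fun g : ι → ℝ => Real.exp (c * ∑ i, |g i|)) (gpi ι) := by
  have h : Integrable (fun g : ι → ℝ => ∏ i, Real.exp (c * |g i|)) (gpi ι) :=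
    Integrable.fintype_prod (f := fun _ x => Real.exp (c * |x|))
      (fun _ => integrable_exp_abs c)
  refine h.congr (ae_of_all _ fun g => ?_)
  simp only
  rw [← Real.exp_sum, Finset.mul_sum]

lemma Dom.integrable {f : (ι → ℝ) → ℝ} (hf : Dom f) : Integrable f (gpi ι) := by
  obtain ⟨C, c, hC, hc, hb⟩ := hf.bound
  exact Integrable.mono' ((integrable_exp_sum c).const_mul C) hf.cont.aestronglyMeasurable
    (ae_of_all _ fun g => by rw [Real.norm_eq_abs]; exact hb g)

lemma int_add {f h : (ι → ℝ) → ℝ} (hf : Dom f) (hh : Dom h) :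
    ∫ g, (f g + h g) ∂(gpi ι) = ∫ g, f g ∂(gpi ι) + ∫ g, h g ∂(gpi ι) :=
  integral_add hf.integrable hh.integrable

lemma int_sub {f h : (ι → ℝ) → ℝ} (hf : Dom f) (hh : Dom h) :
    ∫ g, (f g - h g) ∂(gpi ι) = ∫ g, f g ∂(gpi ι) - ∫ g, h g ∂(gpi ι) :=
  integral_sub hf.integrable hh.integrable

lemma int_mono {f h : (ι → ℝ) → ℝ} (hf : Dom f) (hh : Dom h) (hle : ∀ g, f g ≤ h g) :
    ∫ g, f g ∂(gpi ι) ≤ ∫ g, h g ∂(gpi ι) :=
  integral_mono hf.integrable hh.integrable hle

lemma int_sum {κ : Type*} (s : Finset κ) {f : κ → (ι → ℝ) → ℝ} (hf : ∀ k ∈ s, Dom (f k)) :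
    ∫ g, (∑ k ∈ s, f k g) ∂(gpi ι) = ∑ k ∈ s, ∫ g, f k g ∂(gpi ι) :=
  integral_finsetSum _ fun k hk => (hf k hk).integrable

lemma int_comb {κ : Type*} (s : Finset κ) {f1 f2 f4 : (ι → ℝ) → ℝ} {f3 : κ → (ι → ℝ) → ℝ}
    (h1 : Dom f1) (h2 : Dom f2) (h3 : ∀ k, Dom (f3 k)) (h4 : Dom f4) (a b : ℝ) :
    ∫ g, a * (f1 g + f2 g + ∑ k ∈ s, f3 k g - b * f4 g) ∂(gpi ι)
      = a * (∫ g, f1 g ∂(gpi ι) + ∫ g, f2 g ∂(gpi ι) + ∑ k ∈ s, ∫ g, f3 k g ∂(gpi ι)
        - b * ∫ g, f4 g ∂(gpi ι)) := by
  have hs : Dom (fun g => ∑ k ∈ s, f3 k g) := Dom.sum s fun k _ => h3 k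
  rw [integral_const_mul, int_sub ((h1.add h2).add hs) (h4.const_mul b),
    int_add (h1.add h2) hs, int_add h1 h2, int_sum s fun k _ => h3 k, integral_const_mul]

variable [DecidableEq ι]

omit [Fintype ι] in
lemma measurable_upd (e : ι) :
    Measurable (fun p : (ι → ℝ) × ℝ => Function.update p.1 e p.2) := by
  refine measurable_pi_lambda _ fun i => ?_
  by_cases h : i = e
  · subst h; simpa using measurable_snd
  · simp only [Function.update_of_ne h]
    exact (measurable_pi_apply i).comp measurable_fst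

lemma measurePreserving_upd (e : ι) :
    MeasurePreserving (fun p : (ι → ℝ) × ℝ => Function.update p.1 e p.2)
      ((gpi ι).prod (gaussianReal 0 1)) (gpi ι) := by
  refine ⟨measurable_upd e, ?_⟩
  unfold gpi
  symm
  refine Measure.pi_eq fun s hs => ?_
  rw [Measure.map_apply (measurable_upd e) (MeasurableSet.univ_pi hs)]
  have hpre : (fun p : (ι → ℝ) × ℝ => Function.update p.1 e p.2) ⁻¹' (Set.univ.pi s)
      = (Set.univ.pi (Function.update s e Set.univ)) ×ˢ (s e) := by
    ext p
    simp only [Set.mem_preimage, Set.mem_univ_pi, Set.mem_prod]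
    constructor
    · intro h
      refine ⟨fun i => ?_, ?_⟩
      · by_cases hi : i = e
        · subst hi; simp
        · have := h i
          rw [Function.update_of_ne hi] at this
          rw [Function.update_of_ne hi]; exact this
      · have := h e; simpa using this
    · rintro ⟨h1, h2⟩ i
      by_cases hi : i = e
      · subst hi; simpa using h2
      · have := h1 i
        rw [Function.update_of_ne hi] at this
        rw [Function.update_of_ne hi]; exact this
  rw [hpre, Measure.prod_prod, Measure.pi_pi]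
  have h3 : (∏ i, (gaussianReal 0 1) (Function.update s e Set.univ i))
      = ∏ i ∈ Finset.univ.erase e, (gaussianReal 0 1) (s i) := by
    rw [← Finset.mul_prod_erase Finset.univ _ (Finset.mem_univ e)]
    simp only [Function.update_self, measure_univ, one_mul]
    refine Finset.prod_congr rfl fun i hi => ?_
    rw [Function.update_of_ne (Finset.ne_of_mem_erase hi)]
  rw [h3, mul_comm]
  exact Finset.mul_prod_erase Finset.univ (fun i => (gaussianReal 0 1) (s i))
    (Finset.mem_univ e)

lemma integral_upd (e : ι) {G : (ι → ℝ) → ℝ} (hG : Integrable G (gpi ι)) :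
    ∫ g, G g ∂(gpi ι) = ∫ g, (∫ t, G (Function.update g e t) ∂(gaussianReal 0 1)) ∂(gpi ι) := by
  have hmp := measurePreserving_upd (ι := ι) e
  have h1 : ∫ g, G g ∂(gpi ι)
      = ∫ p : (ι → ℝ) × ℝ, G (Function.update p.1 e p.2) ∂((gpi ι).prod (gaussianReal 0 1)) := by
    conv_lhs => rw [← hmp.map_eq]
    rw [integral_map hmp.measurable.aemeasurable]
    rw [hmp.map_eq]; exact hG.aestronglyMeasurable
  rw [h1]
  refine integral_prod _ ?_
  exact hmp.integrable_comp_of_integrable hG

/-- Gaussian integration by parts in the coordinate `e`. -/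
lemma ibp (e : ι) {Φ Φ' : (ι → ℝ) → ℝ} (hΦ : Dom Φ) (hΦ' : Dom Φ')
    (hd : ∀ g t, HasDerivAt (fun t => Φ (Function.update g e t))
      (Φ' (Function.update g e t)) t) :
    ∫ g, g e * Φ g ∂(gpi ι) = ∫ g, Φ' g ∂(gpi ι) := by
  rw [integral_upd e ((Dom.coord e).mul hΦ).integrable, integral_upd e hΦ'.integrable]
  congr 1
  ext g
  simp only [Function.update_self]
  obtain ⟨C, c, hC, hc, hb⟩ := hΦ.bound
  obtain ⟨C', c', hC', hc', hb'⟩ := hΦ'.bound
  set M : ℝ := Real.exp (max c c' * ∑ i, |g i|) with hM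
  have hs : ∀ t, ∑ i, |Function.update g e t i| ≤ ∑ i, |g i| + |t| := by
    intro t
    have h1 : ∑ i, |Function.update g e t i|
        = |t| + ∑ i ∈ Finset.univ.erase e, |g i| := by
      rw [← Finset.add_sum_erase Finset.univ _ (Finset.mem_univ e)]
      simp only [Function.update_self]
      congr 1
      refine Finset.sum_congr rfl fun i hi => ?_
      rw [Function.update_of_ne (Finset.ne_of_mem_erase hi)]
    have h2 : ∑ i ∈ Finset.univ.erase e, |g i| ≤ ∑ i, |g i| :=
      Finset.sum_le_sum_of_subset_of_nonneg (Finset.erase_subset _ _)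
        fun i _ _ => abs_nonneg _
    rw [h1]; linarith
  have hcont : Continuous fun t : ℝ => Φ' (Function.update g e t) :=
    hΦ'.cont.comp (continuous_const.update e continuous_id)
  refine stein (fun t => Φ (Function.update g e t)) (fun t => Φ' (Function.update g e t))
    (fun t => hd g t) hcont (max C C' * M) (max c c') (fun t => ?_) (fun t => ?_)
  · calc |Φ (Function.update g e t)|
        ≤ C * Real.exp (c * ∑ i, |Function.update g e t i|) := hb _
      _ ≤ max C C' * Real.exp (max c c' * (∑ i, |g i| + |t|)) := by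
          have := sum_abs_nonneg (Function.update g e t)
          have h5 := hs t
          have hm : (0 : ℝ) ≤ max c c' := le_max_of_le_left hc
          gcongr
          · exact le_max_left _ _
          · exact le_max_left _ _
      _ = max C C' * M * Real.exp (max c c' * |t|) := by
          rw [mul_add, Real.exp_add, hM]; ring
  · calc |Φ' (Function.update g e t)|
        ≤ C' * Real.exp (c' * ∑ i, |Function.update g e t i|) := hb' _
      _ ≤ max C C' * Real.exp (max c c' * (∑ i, |g i| + |t|)) := by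
          have := sum_abs_nonneg (Function.update g e t)
          have h5 := hs t
          have hm : (0 : ℝ) ≤ max c c' := le_max_of_le_left hc
          gcongr
          · exact le_max_right _ _
          · exact le_max_right _ _
      _ = max C C' * M * Real.exp (max c c' * |t|) := by
          rw [mul_add, Real.exp_add, hM]; ring

end MultiDim

end Vale.Agent.P146
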